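import Vale.Agent.P181.DGx.H514.Unit

set_option autoImplicit false

/-!
# P181, DG, D4: the symmetrised operator, and the literals of the last blocks
-/

open MvPolynomial

namespace Vale.Agent.P181.DG.H514

open Vale.Agent.P181.T4 (HW)
open Vale.Agent.P181.SZR3 (itD dd)
open Vale.Agent.P181.SZT0 (rc)

variable {m : ℕ} {L : Type}

/-- The new columns. -/
def nw (L : Type) (T n : ℕ) (j : ℕ) : L ⊕ Fin (T + (n + 2)) :=
  Sum.inr (Fin.natAdd T (Fin.ofNat (n + 2) j))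

lemma nw_inj {T n i j : ℕ} (hi : i < n + 2) (hj : j < n + 2) (h : nw L T n i = nw L T n j) :
    i = j := by
  have h1 := Sum.inr_injective h
  have h2 := congrArg Fin.val h1
  simp only [Fin.val_natAdd, Fin.val_ofNat] at h2
  rw [Nat.mod_eq_of_lt hi, Nat.mod_eq_of_lt hj] at h2
  omega

lemma nw_ne {T n j : ℕ} (c : L) : nw L T n j ≠ Sum.inl c := by
  simp [nw]

/-- Moving `n + 2` units from the large column `c` to `n + 2` new small columns. -/
noncomputable def symQ [DecidableEq L] (T n : ℕ) (c : L) :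
    MvPolynomial (Fin m × (L ⊕ Fin T)) ℂ →ₗ[ℂ] MvPolynomial (Fin m × (L ⊕ Fin (T + (n + 2)))) ℂ :=
  ∑ s : Equiv.Perm (Fin (T + (n + 2))), (rc m (Sum.map id s)).toLinearMap ∘ₗ
    (Qn (nw L T n) (Sum.inl c) n ∘ₗ (rc m (Sum.map id (Fin.castAdd (n + 2)))).toLinearMap)

lemma symQ_apply [DecidableEq L] (T n : ℕ) (c : L) (f : MvPolynomial (Fin m × (L ⊕ Fin T)) ℂ) :
    symQ T n c f = ∑ s : Equiv.Perm (Fin (T + (n + 2))), rc m (Sum.map id s)
      (Qn (nw L T n) (Sum.inl c) n (rc m (Sum.map id (Fin.castAdd (n + 2))) f)) := by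
  rw [symQ, LinearMap.sum_apply]
  rfl

/-- Highest weight, degrees `δ` in the large columns, `< S` in the small columns, invariant under
`G` and the permutations of the small columns, translation invariant in the small columns. -/
def Ad (S : ℕ) [Fintype L] (G : Set (Equiv.Perm L)) (δ : L → ℕ) (N : ℕ) (mu : Fin m → ℕ)
    (f : MvPolynomial (Fin m × (L ⊕ Fin N)) ℂ) : Prop :=
  f ∈ HW m (L ⊕ Fin N) mu ∧
    (∀ v, coeff v f ≠ 0 → (∀ j : L, ∑ i, v (i, Sum.inl j) = δ j) ∧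
      ∀ j : Fin N, ∑ i, v (i, Sum.inr j) < S) ∧
    (∀ e ∈ G, ∀ s : Equiv.Perm (Fin N),
      rename (fun p : Fin m × (L ⊕ Fin N) => (p.1, Sum.map e s p.2)) f = f) ∧
    ∀ i, ∑ j : Fin N, pderiv (i, (Sum.inr j : L ⊕ Fin N)) f = 0

/-- No monomial with all small columns. -/
def NF {N : ℕ} (f : MvPolynomial (Fin m × (L ⊕ Fin N)) ℂ) : Prop :=
  ∀ v, coeff v f ≠ 0 → ∃ j : Fin N, ∑ i, v (i, Sum.inr j) = 0

/-- **[D4b]** membership. -/
def AdQStmt : Prop := ∀ (m S : ℕ) (L : Type) [Fintype L] [DecidableEq L]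
  (G : Set (Equiv.Perm L)) (δ : L → ℕ) (T n : ℕ) (mu : Fin m → ℕ) (c : L), 4 ≤ S →
  (∀ e ∈ G, e c = c) → n + 2 ≤ δ c → ∀ f : MvPolynomial (Fin m × (L ⊕ Fin T)) ℂ,
  Ad S G δ T mu f →
    Ad S G (fun j => if j = c then δ c - (n + 2) else δ j) (T + (n + 2)) mu (symQ T n c f)

/-- **[D4i]** graded injectivity. -/
def NFQStmt : Prop := ∀ (m : ℕ) (L : Type) [Fintype L] [DecidableEq L]
  (δ : L → ℕ) (T n : ℕ) (c : L), T + (n + 2) ≤ δ c →
  ∀ f : MvPolynomial (Fin m × (L ⊕ Fin T)) ℂ,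
  (∀ v, coeff v f ≠ 0 → ∀ j : L, ∑ i, v (i, Sum.inl j) = δ j) →
  (∀ s : Equiv.Perm (Fin T),
    rename (fun p : Fin m × (L ⊕ Fin T) => (p.1, Sum.map id s p.2)) f = f) →
  NF (symQ T n c f) → NF f

/-- **[D4s]** one split of a large column. -/
def AdSStmt : Prop := ∀ (m S : ℕ) (L : Type) [Fintype L] [DecidableEq L]
  (G : Set (Equiv.Perm L)) (δ : L → ℕ) (N u : ℕ) (mu : Fin m → ℕ) (a c : L), a ≠ c → δ a = 0 →
  u ≤ δ c → (∀ e ∈ G, e a = a ∧ e c = c) → ∀ f : MvPolynomial (Fin m × (L ⊕ Fin N)) ℂ,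
  Ad S G δ N mu f →
    Ad S G (dd δ a c u) N mu (itD (Sum.inl a) (Sum.inl c) u f) ∧
      (NF (itD (Sum.inl a) (Sum.inl c) u f) → NF f)

end Vale.Agent.P181.DG.H514
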