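import Vale.Agent.P181.DG.Defs
import Vale.Agent.P181.SZR3.Pow

set_option autoImplicit false

/-!
# P181, DG, D4: literals of the two auxiliary blocks
-/

open MvPolynomial

namespace Vale.Agent.P181.DG.H514

open Vale.Agent.P181.T4 (HW)
open Vale.Agent.P181.DG (PKT NT)

/-- The elements of `PKT (t + 1)` without a monomial in which all small columns occur. -/
noncomputable def KerT (m S : ℕ) (σ : Type) [Fintype σ] (d : σ → ℕ) (t : ℕ) (mu : Fin m → ℕ) :
    Submodule ℂ (MvPolynomial (Fin m × (σ ⊕ Fin (t + 1))) ℂ) where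
  carrier := {f | f ∈ PKT m S σ d (t + 1) mu ∧
    ∀ v, coeff v f ≠ 0 → ∃ j : Fin (t + 1), ∑ i, v (i, Sum.inr j) = 0}
  zero_mem' := ⟨zero_mem _, fun v hv => absurd (coeff_zero v) hv⟩
  add_mem' := by
    rintro f g ⟨hf1, hf2⟩ ⟨hg1, hg2⟩
    refine ⟨add_mem hf1 hg1, fun v hv => ?_⟩
    rw [coeff_add] at hv
    by_cases h : coeff v f = 0
    · rw [h, zero_add] at hv
      exact hg2 v hv
    · exact hf2 v h
  smul_mem' := by
    rintro c f ⟨hf1, hf2⟩
    refine ⟨Submodule.smul_mem _ c hf1, fun v hv => ?_⟩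
    rw [coeff_smul, smul_eq_mul] at hv
    exact hf2 v (right_ne_zero_of_mul hv)

/-- **[K]** dropping a small column (letters picture: the same polynomial in the letters; the
component with `n` nonzero small columns is multiplied by `t + 1 - n`). -/
def KerStmt : Prop := ∀ (m S : ℕ) (σ : Type) [Fintype σ] (d : σ → ℕ) (t : ℕ) (mu : Fin m → ℕ),
  1 ≤ S → Module.finrank ℂ (KerT m S σ d t mu) = Module.finrank ℂ (PKT m S σ d t mu)

/-- **[R]** restitution: a polynomial which is symmetric and of degree one in each of the columns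
of `M` is determined by its restriction to the diagonal of `M`. -/
def RestStmt : Prop := ∀ (m : ℕ) (B B' : Type) [Fintype B] [Fintype B'] (κ : B → B')
  (M : Set B) (z : B'), (∀ b, κ b = z ↔ b ∈ M) → (∀ b b', b ∉ M → κ b = κ b' → b = b') →
  ∀ p : MvPolynomial (Fin m × B) ℂ,
    (∀ v, coeff v p ≠ 0 → ∀ b ∈ M, ∑ i, v (i, b) = 1) →
    (∀ e : Equiv.Perm B, (∀ b, b ∉ M → e b = b) →
      rename (fun q : Fin m × B => (q.1, e q.2)) p = p) →
    rename (fun q : Fin m × B => (q.1, κ q.2)) p = 0 → p = 0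

/-- **[S]** the sl_2 core: the `D`-th power of the operator `X (i, c) ↦ X (i, a)` is injective on
the polynomials of degree `k` in the column `c` and `r` in the column `a`, if `r + D ≤ k`. -/
def SlStmt : Prop := ∀ (m : ℕ) (B : Type) [Fintype B] [DecidableEq B] (a c : B) (d : B → ℕ)
  (D : ℕ), a ≠ c → d a + D ≤ d c → ∀ f : MvPolynomial (Fin m × B) ℂ,
    SZR3.ColH d f → SZR3.itD a c D f = 0 → f = 0

/-- **[0]** the case `D = 0` of `DisT`. -/
def Dis0Stmt : Prop := ∀ (m S : ℕ) (mu : Fin m → ℕ) (rho A : Multiset ℕ) (k t : ℕ), 4 ≤ S →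
  0 < k → A.Nodup → (∀ x ∈ A, S ≤ x ∧ x ∉ rho ∧ x ≠ k) → k = A.sum →
  NT m S mu (k ::ₘ rho) (t + 1) + NT m S mu (A + rho) t ≤
    NT m S mu (k ::ₘ rho) t + NT m S mu (A + rho) (t + 1)

end Vale.Agent.P181.DG.H514
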