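import Vale.Agent.P181.DGx.H514.Fin
import Vale.Agent.P181.DGx.H831.Ker
import Vale.Agent.P181.H435.AdQ

set_option autoImplicit false

/-!
# P181, DG, D4: `DisT`
-/

namespace Vale.Agent.P181.DG.H514

/-- **(D4)** dissolving a letter into new letters and units, graded by the small columns. -/
theorem disT : DisT := disT_of DGx.H831.kerStmt H435.adQ

end Vale.Agent.P181.DG.H514
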