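import Vale.Agent.P181.DG0.Tr
import Vale.Agent.P181.DGx.H514.Lit

set_option autoImplicit false

/-!
# P181, DG, D4: the components of given column degrees
-/

open MvPolynomial

namespace Vale.Agent.P181.DG.H514

open Vale.Agent.P181.SZR3 (colD itD ColH colD_X colH_colD exists_coeff_colD sum_single_col
  itD_zero itD_succ dd)
open Vale.Agent.P181.SZT0 (rc inj_pr rc_inj coeff_rc)

variable {m : ℕ} {B : Type}

/-- The column weight of a variable. -/
def colW (m : ℕ) (B : Type) [DecidableEq B] : Fin m × B → (B → ℕ) := fun p => Pi.single p.2 1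

lemma weight_colW [Fintype B] [DecidableEq B] (v : Fin m × B →₀ ℕ) (b : B) :
    Finsupp.weight (colW m B) v b = ∑ i, v (i, b) := by
  have h0 : v.sum (fun p c => c • colW m B p) b = ∑ p ∈ v.support, (v p • colW m B p) b := by
    rw [Finsupp.sum, Finset.sum_apply]
  have h1 : ∑ p ∈ v.support, (v p • colW m B p) b = ∑ p : Fin m × B, (v p • colW m B p) b := by
    apply Finset.sum_subset (Finset.subset_univ _)
    intro p _ hp
    rw [Finsupp.notMem_support_iff.1 hp, zero_smul, Pi.zero_apply]
  rw [Finsupp.weight_apply, h0, h1, Fintype.sum_prod_type]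
  apply Finset.sum_congr rfl
  intro i _
  rw [Finset.sum_eq_single b]
  · simp [colW]
  · intro k _ hk
    simp [colW, Pi.single_eq_of_ne (Ne.symm hk)]
  · intro h
    exact absurd (Finset.mem_univ _) h

/-- The component of column degrees `δ`. -/
noncomputable def cmp [DecidableEq B] (δ : B → ℕ) :
    MvPolynomial (Fin m × B) ℂ →ₗ[ℂ] MvPolynomial (Fin m × B) ℂ :=
  weightedHomogeneousComponent (colW m B) δ

open scoped Classical in
lemma coeff_cmp [Fintype B] (δ : B → ℕ) (f : MvPolynomial (Fin m × B) ℂ)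
    (v : Fin m × B →₀ ℕ) :
    coeff v (cmp δ f) = if ∀ b, ∑ i, v (i, b) = δ b then coeff v f else 0 := by
  rw [cmp, coeff_weightedHomogeneousComponent]
  have h : Finsupp.weight (colW m B) v = δ ↔ ∀ b, ∑ i, v (i, b) = δ b := by
    rw [funext_iff]
    exact forall_congr' fun b => by rw [weight_colW]
  by_cases h1 : ∀ b, ∑ i, v (i, b) = δ b
  · rw [if_pos (h.2 h1), if_pos h1]
  · rw [if_neg (fun h2 => h1 (h.1 h2)), if_neg h1]

variable [Fintype B] [DecidableEq B]

lemma coeff_cmp_pos {δ : B → ℕ} (f : MvPolynomial (Fin m × B) ℂ)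
    {v : Fin m × B →₀ ℕ} (hv : ∀ b, ∑ i, v (i, b) = δ b) : coeff v (cmp δ f) = coeff v f := by
  have h : Finsupp.weight (colW m B) v = δ := by
    funext b
    rw [weight_colW]
    exact hv b
  rw [cmp, coeff_weightedHomogeneousComponent, if_pos h]

lemma coeff_cmp_neg {δ : B → ℕ} (f : MvPolynomial (Fin m × B) ℂ)
    {v : Fin m × B →₀ ℕ} (hv : ¬ ∀ b, ∑ i, v (i, b) = δ b) : coeff v (cmp δ f) = 0 := by
  have h : ¬ Finsupp.weight (colW m B) v = δ := by
    intro h
    apply hv
    intro b
    rw [← weight_colW, h]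
  rw [cmp, coeff_weightedHomogeneousComponent, if_neg h]

lemma colH_cmp (δ : B → ℕ) (f : MvPolynomial (Fin m × B) ℂ) : ColH δ (cmp δ f) := by
  intro v hv
  by_contra h
  exact hv (coeff_cmp_neg f h)

lemma cmp_of_colH {δ : B → ℕ} {f : MvPolynomial (Fin m × B) ℂ} (hf : ColH δ f) :
    cmp δ f = f := by
  apply MvPolynomial.ext
  intro v
  by_cases h : ∀ b, ∑ i, v (i, b) = δ b
  · exact coeff_cmp_pos f h
  · rw [coeff_cmp_neg f h]
    by_contra h1
    exact h (hf v (Ne.symm h1))

lemma cmp_eq_zero {δ : B → ℕ} {f : MvPolynomial (Fin m × B) ℂ}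
    (hf : ∀ v, coeff v f ≠ 0 → ¬ ∀ b, ∑ i, v (i, b) = δ b) : cmp δ f = 0 := by
  apply MvPolynomial.ext
  intro v
  rw [coeff_zero]
  by_cases h : ∀ b, ∑ i, v (i, b) = δ b
  · rw [coeff_cmp_pos f h]
    by_contra h1
    exact hf v h1 h
  · exact coeff_cmp_neg f h

/-- The components and the column operators. -/
lemma cmp_colD {a c : B} {δ δ' : B → ℕ}
    (h : ∀ j, δ' j + (if c = j then 1 else 0) = δ j + (if a = j then 1 else 0))
    (f : MvPolynomial (Fin m × B) ℂ) : cmp δ' (colD a c f) = colD a c (cmp δ f) := by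
  have h1 : colD a c f = colD a c (cmp δ f) + colD a c (f - cmp δ f) := by
    rw [← map_add]
    congr 1
    ring
  have h4 : cmp δ' (colD a c (f - cmp δ f)) = 0 := by
    apply cmp_eq_zero
    intro v hv hv'
    obtain ⟨i, u, rfl, hu⟩ := exists_coeff_colD a c _ v hv
    apply hu
    rw [coeff_sub, coeff_cmp_pos, sub_self]
    intro b
    have h2 := hv' b
    have h3 := h b
    simp only [Finsupp.add_apply, Finset.sum_add_distrib, sum_single_col] at h2 ⊢
    omega
  rw [h1, map_add, cmp_of_colH (colH_colD (colH_cmp δ f) h), h4, add_zero]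

lemma cmp_colD_zero {a c : B} {δ : B → ℕ} (h : δ a = 0)
    (f : MvPolynomial (Fin m × B) ℂ) : cmp δ (colD a c f) = 0 := by
  apply cmp_eq_zero
  intro v hv hv'
  obtain ⟨i, u, rfl, hu⟩ := exists_coeff_colD a c _ v hv
  have h2 := hv' a
  simp only [Finsupp.add_apply, Finset.sum_add_distrib, sum_single_col, h] at h2
  simp at h2

/-- The components and the powers of the column operators. -/
lemma cmp_itD {a c : B} (hac : a ≠ c) {δ : B → ℕ} (hδ : δ a = 0)
    (f : MvPolynomial (Fin m × B) ℂ) (u : ℕ) (hu : u ≤ δ c) :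
    cmp (dd δ a c u) (itD a c u f) = itD a c u (cmp δ f) := by
  induction u with
  | zero =>
    have h0 : dd δ a c 0 = δ := by
      funext j
      rw [dd]
      split_ifs with h1 h2
      · rw [h1, hδ]
      · rw [h2, Nat.sub_zero]
      · rfl
    rw [itD_zero, itD_zero, h0]
  | succ u ih =>
    rw [itD_succ, itD_succ, ← ih (by omega)]
    refine cmp_colD (fun j => ?_) _
    simp only [dd]
    by_cases h1 : j = a
    · subst h1
      simp [Ne.symm hac]
    · by_cases h2 : j = c
      · subst h2
        simp [hac, Ne.symm hac]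
        omega
      · simp [h1, h2, Ne.symm h1, Ne.symm h2]

/-- The components under an injective change of columns. -/
lemma cmp_rc {τ : Type} [Fintype τ] [DecidableEq τ] {ι : τ → B} (hι : Function.Injective ι)
    {δ : B → ℕ} (hδ : ∀ b, b ∉ Set.range ι → δ b = 0) (f : MvPolynomial (Fin m × τ) ℂ) :
    cmp δ (rc m ι f) = rc m ι (cmp (fun j => δ (ι j)) f) := by
  have hcd : ∀ (u : Fin m × τ →₀ ℕ), (∀ b, ∑ i, Finsupp.mapDomain
      (fun p : Fin m × τ => (p.1, ι p.2)) u (i, b) = δ b) ↔ ∀ j, ∑ i, u (i, j) = δ (ι j) := by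
    intro u
    constructor
    · intro h j
      rw [← h (ι j)]
      exact Finset.sum_congr rfl fun i _ => (Finsupp.mapDomain_apply (inj_pr hι) u (i, j)).symm
    · intro h b
      by_cases hb : b ∈ Set.range ι
      · obtain ⟨j, rfl⟩ := hb
        rw [← h j]
        exact Finset.sum_congr rfl fun i _ => Finsupp.mapDomain_apply (inj_pr hι) u (i, j)
      · rw [hδ b hb]
        apply Finset.sum_eq_zero
        intro i _
        apply Finsupp.mapDomain_of_notMem_range
        rintro ⟨⟨a, b'⟩, hab⟩
        exact hb ⟨b', congrArg Prod.snd hab⟩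
  apply MvPolynomial.ext
  intro v
  by_cases hv : ∃ u, Finsupp.mapDomain (fun p : Fin m × τ => (p.1, ι p.2)) u = v
  · obtain ⟨u, rfl⟩ := hv
    have h1 : ∀ g : MvPolynomial (Fin m × τ) ℂ,
        coeff (Finsupp.mapDomain (fun p : Fin m × τ => (p.1, ι p.2)) u) (rc m ι g) = coeff u g :=
      fun g => coeff_rename_mapDomain _ (inj_pr hι) g u
    rw [h1]
    by_cases h2 : ∀ j, ∑ i, u (i, j) = δ (ι j)
    · rw [coeff_cmp_pos _ ((hcd u).2 h2), coeff_cmp_pos _ h2, h1]
    · rw [coeff_cmp_neg _ (fun h => h2 ((hcd u).1 h)), coeff_cmp_neg _ h2]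
  · have h1 : ∀ g : MvPolynomial (Fin m × τ) ℂ, coeff v (rc m ι g) = 0 := by
      intro g
      apply coeff_rename_eq_zero
      intro u hu
      exact absurd ⟨u, hu⟩ hv
    rw [h1]
    by_cases h2 : ∀ b, ∑ i, v (i, b) = δ b
    · rw [coeff_cmp_pos _ h2, h1]
    · exact coeff_cmp_neg _ h2

omit [Fintype B] in
/-- Column operators under a change of columns which is injective at `c`. -/
lemma rc_colD {B' : Type} [DecidableEq B'] (κ : B → B') (a c : B)
    (hc : ∀ b, κ b = κ c → b = c) (f : MvPolynomial (Fin m × B) ℂ) :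
    rc m κ (colD a c f) = colD (κ a) (κ c) (rc m κ f) := by
  induction f using MvPolynomial.induction_on with
  | C r =>
    rw [← algebraMap_eq, Derivation.map_algebraMap, map_zero, AlgHom.commutes,
      Derivation.map_algebraMap]
  | add p q hp hq => rw [map_add, map_add, hp, hq, map_add, map_add]
  | mul_X p q hp =>
    have h1 : rc m κ (X q) = X (q.1, κ q.2) := rename_X _ _
    have h2 : rc m κ (colD a c (X q : MvPolynomial (Fin m × B) ℂ)) =
        colD (κ a) (κ c) (X (q.1, κ q.2) : MvPolynomial (Fin m × B') ℂ) := by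
      rw [colD_X, colD_X]
      by_cases h3 : q.2 = c
      · rw [if_pos h3, if_pos (by rw [h3])]
        exact rename_X _ _
      · rw [if_neg h3, if_neg (fun h4 => h3 (hc _ h4)), map_zero]
    rw [Derivation.leibniz, map_add, smul_eq_mul, smul_eq_mul, map_mul, map_mul, hp, h2, map_mul,
      Derivation.leibniz, h1, smul_eq_mul, smul_eq_mul]

omit [Fintype B] in
lemma rc_itD {B' : Type} [DecidableEq B'] (κ : B → B') (a c : B)
    (hc : ∀ b, κ b = κ c → b = c) (u : ℕ) (f : MvPolynomial (Fin m × B) ℂ) :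
    rc m κ (itD a c u f) = itD (κ a) (κ c) u (rc m κ f) := by
  induction u with
  | zero => rw [itD_zero, itD_zero]
  | succ u ih => rw [itD_succ, itD_succ, rc_colD κ a c hc, ih]

/-- Column degrees under a change of columns. -/
lemma colH_rc {B' : Type} [Fintype B'] [DecidableEq B'] (κ : B → B') {δ : B → ℕ}
    {f : MvPolynomial (Fin m × B) ℂ} (hf : ColH δ f) :
    ColH (fun b' => ∑ b, if κ b = b' then δ b else 0) (rc m κ f) := by
  intro v hv b'
  obtain ⟨u, rfl, hu⟩ := coeff_rename_ne_zero _ _ _ hv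
  have key : ∀ u : Fin m × B →₀ ℕ,
      ∑ i, Finsupp.mapDomain (fun p : Fin m × B => (p.1, κ p.2)) u (i, b') =
        ∑ b, if κ b = b' then ∑ i, u (i, b) else 0 := by
    intro u
    induction u using Finsupp.induction_linear with
    | zero => simp
    | add u v hu hv =>
      rw [Finsupp.mapDomain_add]
      simp only [Finsupp.add_apply, Finset.sum_add_distrib]
      rw [hu, hv, ← Finset.sum_add_distrib]
      apply Finset.sum_congr rfl
      intro b _
      split_ifs <;> simp
    | single p n =>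
      rw [Finsupp.mapDomain_single]
      obtain ⟨i0, b0⟩ := p
      simp only [Finsupp.single_apply, Prod.mk.injEq]
      by_cases h : κ b0 = b'
      · rw [Finset.sum_eq_single b0]
        · simp [h]
        · intro b _ hb
          simp [Ne.symm hb]
        · intro h'
          exact absurd (Finset.mem_univ _) h'
      · rw [Finset.sum_eq_zero, Finset.sum_eq_zero]
        · intro b _
          by_cases h2 : b0 = b
          · subst h2
            simp [h]
          · simp [h2]
        · intro i _
          simp [h]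
  rw [key]
  apply Finset.sum_congr rfl
  intro b _
  rw [hf u hu b]

end Vale.Agent.P181.DG.H514
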