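import Vale.Agent.P181.DGx.H514.Inj
import Vale.Agent.P181.DGz.H547.Dis0
import Vale.Agent.P181.DG4a.Sl
import Vale.Agent.P181.DG4r.H909.Rest

set_option autoImplicit false

/-!
# P181, DG, D4: dissolving a letter, final assembly
-/

open MvPolynomial

namespace Vale.Agent.P181.DG.H514

open Vale.Agent.P181.T4 (HW)
open Vale.Agent.P181.SZT0 (rc inj_pr rc_inj coeff_rc rc_mem_HW)
open Vale.Agent.P181.DG0 (mem_PKT)
open Vale.Agent.P181.DG4a
open Vale.Agent.P181.DGz.H547 (Ph Ph_apply coeff_Ph Ph_inj io io_inj gg c0 LQ mem_LL mem_HW_polL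
  pderiv_polL finrank_quot e1 map_e1 map_d2)

section map

variable {m n t : ℕ} {β : Type} [Fintype β] [DecidableEq β]
variable {S : ℕ} {d1 : Unit ⊕ β → ℕ} {d2 : Option (Fin n) ⊕ β → ℕ} {mu : Fin m → ℕ}

/-- The group of the intermediate space. -/
def GU {β : Type} (d1 : Unit ⊕ β → ℕ) : Set (Equiv.Perm (Unit ⊕ β)) :=
  {e | e (Sum.inl ()) = Sum.inl () ∧ ∀ r, d1 (e (Sum.inr r)) = d1 (Sum.inr r)}

/-- The splitting map on the intermediate space. -/
lemma Ph_mem' {w : Fin n → ℕ} (hd0 : d1 (Sum.inl ()) = d2 (Sum.inl none) + ∑ q, w q)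
    (hdr : ∀ r, d1 (Sum.inr r) = d2 (Sum.inr r)) (hdw : ∀ q, d2 (Sum.inl (some q)) = w q)
    (hG : ∀ e : Equiv.Perm (Option (Fin n) ⊕ β), (∀ j, d2 (e j) = d2 j) →
      ∀ j : Option (Fin n), e (Sum.inl j) = Sum.inl j)
    {f : MvPolynomial (Fin m × ((Unit ⊕ β) ⊕ Fin t)) ℂ}
    (hf : Ad S (GU d1) d1 t mu f) :
    Ph m n t β w f ∈ PKT m S (Option (Fin n) ⊕ β) d2 t mu := by
  rw [mem_PKT]
  obtain ⟨h1, h2, h3, h4⟩ := hf
  refine ⟨?_, ?_, ?_, ?_⟩
  · exact mem_HW_polL _ _ ((rc_mem_HW io_inj).2 h1)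
  · intro v hv
    obtain ⟨u, hu, h5, h6, h7, h8⟩ := coeff_Ph hv
    obtain ⟨h9, h10⟩ := h2 u hu
    constructor
    · rintro ((_ | q) | r)
      · have h11 := h9 (Sum.inl ())
        rw [hd0] at h11
        have h12 : cdeg u (Sum.inl (Sum.inl ())) = d2 (Sum.inl none) + ∑ q, w q := h11
        have h13 : cdeg v (c0 n t β) = d2 (Sum.inl none) := by omega
        exact h13
      · rw [hdw]
        exact h6 q
      · rw [← hdr]
        exact (h7 r).trans (h9 (Sum.inr r))
    · intro s
      exact lt_of_eq_of_lt (h8 s) (h10 s)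
  · intro e s he
    have hG' := hG e he
    have h5 : Set.MapsTo e (Set.range Sum.inl) (Set.range Sum.inl) := by
      rintro _ ⟨j, rfl⟩
      exact ⟨j, (hG' j).symm⟩
    obtain ⟨⟨e1, e2⟩, h6⟩ := Equiv.Perm.mem_sumCongrHom_range_of_perm_mapsTo_inl h5
    have h7 : ∀ r, e (Sum.inr r) = Sum.inr (e2 r) := by
      intro r
      rw [← h6]
      rfl
    have h8 : Function.Injective (Sum.map e s : (Option (Fin n) ⊕ β) ⊕ Fin t → _) :=
      Function.Injective.sumMap e.injective s.injective
    have h9 := rn_polL (m := m) (Sum.map e s) (c0 n t β) (fun x hx => h8 hx) (LQ n t β w)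
      (rn (io n t β) f)
    have h10 : (LQ n t β w).map (Sum.map e s) = LQ n t β w := by
      conv_rhs => rw [← List.map_id (LQ n t β w)]
      apply List.map_congr_left
      intro y hy
      obtain ⟨q, _, rfl⟩ := mem_LL hy
      show Sum.inl (e (Sum.inl (some q))) = _
      rw [hG']
      rfl
    have h11 : (Sum.map e s (c0 n t β) : (Option (Fin n) ⊕ β) ⊕ Fin t) = c0 n t β := by
      show Sum.inl (e (Sum.inl none)) = _
      rw [hG']
      rfl
    have h12 : rn (m := m) (Sum.map e s) (rn (io n t β) f) = rn (io n t β) f := by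
      have h13 := h3 (Equiv.sumCongr (Equiv.refl Unit) e2) ⟨rfl, fun r => by
          show d1 (Sum.inr (e2 r)) = _
          rw [hdr, hdr, ← h7, he]⟩ s
      have h14 : rn (m := m) (Sum.map (Equiv.sumCongr (Equiv.refl Unit) e2) s) f = f := h13
      conv_rhs => rw [← h14]
      rw [rn_rn, rn_rn]
      congr 2
      funext y
      rcases y with (⟨⟩ | r) | s'
      · show Sum.inl (e (Sum.inl none)) = _
        rw [hG']
        rfl
      · show Sum.inl (e (Sum.inr r)) = _
        rw [h7]
        rfl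
      · rfl
    rw [h10, h11, h12] at h9
    exact h9
  · intro i
    have h5 : ∀ j : Fin t, pderiv (i, (Sum.inr j : (Option (Fin n) ⊕ β) ⊕ Fin t))
        (Ph m n t β w f) = Ph m n t β w (pderiv (i, Sum.inr j) f) := by
      intro j
      rw [Ph_apply, pderiv_polL]
      · rw [Ph_apply]
        congr 1
        exact pderiv_rename (inj_pr io_inj) (i, Sum.inr j) f
      · intro h
        obtain ⟨q, _, h6⟩ := mem_LL h
        exact absurd h6 (by simp [gg])
    rw [Finset.sum_congr rfl fun j _ => h5 j, ← map_sum, h4 i, map_zero]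

/-- The kernel of the quotient map. -/
lemma Ph_NF {w : Fin n → ℕ} {k x : ℕ} (hd0 : k = x + ∑ q, w q)
    {f : MvPolynomial (Fin m × ((Unit ⊕ β) ⊕ Fin t)) ℂ}
    (hf : ∀ v, coeff v f ≠ 0 → ∑ i, v (i, Sum.inl (Sum.inl ())) = k)
    (h : NF (Ph m n t β w f)) : NF f := by
  classical
  intro v hv
  by_contra hno
  push Not at hno
  have hv1 : cdeg v (Sum.inl (Sum.inl ())) = x + ∑ q, w q := (hf v hv).trans hd0
  let d' : (Option (Fin n) ⊕ β) ⊕ Fin t → ℕ := fun
    | .inl (.inl none) => x
    | .inl (.inl (some q)) => w q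
    | .inl (.inr r) => cdeg v (.inl (.inr r))
    | .inr s => cdeg v (.inr s)
  have h1 : cp d' (Ph m n t β w f) = Ph m n t β w (cp (cdeg v) f) := by
    apply cp_comm
    intro g v' hv'
    obtain ⟨u, hu, h5, h6, h7, h8⟩ := coeff_Ph hv'
    refine ⟨u, hu, ?_⟩
    constructor
    · intro h9
      funext y
      rcases y with (⟨⟩ | r) | s
      · rw [hv1, ← h5, h9]
        rfl
      · rw [← h7, h9]
      · rw [← h8, h9]
    · intro h9
      funext y
      rcases y with ((_ | q) | r) | s
      · have h10 : cdeg v' (c0 n t β) = x := by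
          rw [h9, hv1] at h5
          omega
        exact h10
      · exact h6 q
      · rw [h7, h9]
      · rw [h8, h9]
  have h2 : cp d' (Ph m n t β w f) = 0 := by
    apply MvPolynomial.ext
    intro v'
    rw [coeff_zero]
    by_contra hv'
    obtain ⟨h3, h4⟩ := cdeg_of_coeff_cp hv'
    obtain ⟨j, hj⟩ := h v' h4
    have h5 : cdeg v' (Sum.inr j) = cdeg v (Sum.inr j) := by rw [h3]
    exact hno j (h5.symm.trans hj)
  rw [h2] at h1
  have h3 : cp (cdeg v) f = 0 := by
    refine Ph_inj (N := x + ∑ q, w q) (by omega) ?_ h1.symm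
    intro u hu
    rw [(cdeg_of_coeff_cp hu).1]
    exact hv1
  apply hv
  have h4 := congrArg (coeff v) h3
  rw [coeff_cp, if_pos rfl, coeff_zero] at h4
  exact h4

end map

/-- The elements of `PKT` without a monomial in which all small columns occur. -/
noncomputable def KerN (m S : ℕ) (σ : Type) [Fintype σ] (d : σ → ℕ) (N : ℕ) (mu : Fin m → ℕ) :
    Submodule ℂ (MvPolynomial (Fin m × (σ ⊕ Fin N)) ℂ) where
  carrier := {f | f ∈ PKT m S σ d N mu ∧ NF f}
  zero_mem' := ⟨zero_mem _, fun v hv => absurd (coeff_zero v) hv⟩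
  add_mem' := by
    rintro f g ⟨hf1, hf2⟩ ⟨hg1, hg2⟩
    refine ⟨add_mem hf1 hg1, fun v hv => ?_⟩
    rw [coeff_add] at hv
    by_cases h : coeff v f = 0
    · rw [h, zero_add] at hv
      exact hg2 v hv
    · exact hf2 v h
  smul_mem' := by
    rintro c f ⟨hf1, hf2⟩
    refine ⟨Submodule.smul_mem _ c hf1, fun v hv => ?_⟩
    rw [coeff_smul, smul_eq_mul] at hv
    exact hf2 v (right_ne_zero_of_mul hv)

lemma finrank_KerN (hK : KerStmt) {m S : ℕ} {σ : Type} [Fintype σ] {d : σ → ℕ} {N t : ℕ}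
    {mu : Fin m → ℕ} (hS : 1 ≤ S) (h : N = t + 1) :
    Module.finrank ℂ (KerN m S σ d N mu) = Module.finrank ℂ (PKT m S σ d t mu) := by
  subst h
  exact hK m S σ d t mu hS

/-- The source degrees. -/
noncomputable def eS (rho : Multiset ℕ) (k : ℕ) : Unit ⊕ Fin rho.toList.length → ℕ
  | .inl _ => k
  | .inr r => rho.toList.get r

open Vale.Agent.P181.SZR3 (get_mem map_univ_toList) in
/-- **(D4)** dissolving a letter. -/
theorem disT_of (hK : KerStmt) (hQ : AdQStmt) : DisT := by
  classical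
  intro m S mu rho A k D t hS hk hA hA2 hkA hD
  rcases hD with rfl | ⟨hD, ht⟩
  · exact DGz.H547.dis0 hK m S mu rho A k t hS hk hA hA2 (by omega)
  obtain ⟨n, rfl⟩ : ∃ n, D = n + 2 := ⟨D - 2, by omega⟩
  obtain ⟨x, hx⟩ : ∃ x, x ∈ A := by
    apply Multiset.exists_mem_of_ne_zero
    rintro rfl
    rw [Multiset.sum_zero] at ht
    omega
  obtain ⟨U, rfl⟩ := Multiset.exists_cons_of_mem hx
  rw [Multiset.nodup_cons] at hA
  rw [Multiset.sum_cons] at hkA ht
  have hxr : x ∉ rho := (hA2 x hx).2.1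
  have hUr : ∀ y ∈ U, y ∉ rho := fun y hy => (hA2 y (Multiset.mem_cons_of_mem hy)).2.1
  have hUx : ∀ y ∈ U, y ≠ x := fun y hy h => hA.1 (h ▸ hy)
  let σ := Option (Fin U.toList.length) ⊕ Fin rho.toList.length
  have hUnd : U.toList.Nodup := by
    rw [← Multiset.coe_nodup, Multiset.coe_toList]
    exact hA.2
  have hG : ∀ e : Equiv.Perm σ, (∀ j, SZR3.d2 U rho x (e j) = SZR3.d2 U rho x j) →
      ∀ j : Option (Fin U.toList.length), e (.inl j) = .inl j := by
    intro e he j
    have h := he (.inl j)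
    rcases j with _ | q
    · rcases hj : e (.inl none) with (_ | q') | r
      · rfl
      · rw [hj] at h
        exact absurd h (hUx _ (get_mem U q'))
      · rw [hj] at h
        have h' : rho.toList.get r = x := h
        exact absurd (h' ▸ get_mem rho r) hxr
    · rcases hj : e (.inl (some q)) with (_ | q') | r
      · rw [hj] at h
        exact absurd h.symm (hUx _ (get_mem U q))
      · rw [hj] at h
        have h' : q' = q := List.nodup_iff_injective_get.1 hUnd h
        rw [h']
      · rw [hj] at h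
        have h' : rho.toList.get r = U.toList.get q := h
        exact absurd (h' ▸ get_mem rho r) (hUr _ (get_mem U q))
  have hsum : ∑ q : Fin U.toList.length, U.toList.get q = U.sum := by
    have h1 : ∑ q : Fin U.toList.length, U.toList.get q =
        ((Finset.univ : Finset (Fin U.toList.length)).val.map (fun j => U.toList.get j)).sum :=
      rfl
    rw [h1, map_univ_toList]
  have hd0 : e1 U rho x (Sum.inl ()) = SZR3.d2 U rho x (Sum.inl none) +
      ∑ q : Fin U.toList.length, U.toList.get q := by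
    rw [hsum]
    rfl
  have hδ : (fun j => if j = Sum.inl () then eS rho k (Sum.inl ()) - (n + 2)
      else eS rho k j) = e1 U rho x := by
    funext j
    rcases j with ⟨⟩ | r
    · rw [if_pos rfl]
      change k - (n + 2) = x + U.sum
      omega
    · rw [if_neg (by simp)]
      rfl
  have hAd : ∀ f ∈ PKT m S (Unit ⊕ Fin rho.toList.length) (eS rho k) (t + 1) mu,
      Ad S (GU (e1 U rho x)) (eS rho k) (t + 1) mu f := by
    intro f hf
    rw [mem_PKT] at hf
    refine ⟨hf.1, hf.2.1, fun e he s => hf.2.2.1 e s fun j => ?_, hf.2.2.2⟩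
    rcases j with ⟨⟩ | r
    · rw [he.1]
    · have h1 := he.2 r
      rcases hr : e (Sum.inr r) with ⟨⟩ | r'
      · rw [← he.1] at hr
        exact absurd (e.injective hr) (by simp)
      · rw [hr] at h1
        exact h1
  have hAd2 : ∀ f ∈ PKT m S (Unit ⊕ Fin rho.toList.length) (eS rho k) (t + 1) mu,
      Ad S (GU (e1 U rho x)) (e1 U rho x) (t + 1 + (n + 2)) mu
        (symQ (t + 1) n (Sum.inl ()) f) := by
    intro f hf
    have h1 := hQ m S (Unit ⊕ Fin rho.toList.length) (GU (e1 U rho x)) (eS rho k) (t + 1) n mu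
      (Sum.inl ()) hS (fun e he => he.1) (by change n + 2 ≤ k; omega) f (hAd f hf)
    rw [hδ] at h1
    exact h1
  let Φ : MvPolynomial (Fin m × ((Unit ⊕ Fin rho.toList.length) ⊕ Fin (t + 1))) ℂ →ₗ[ℂ]
      MvPolynomial (Fin m × (σ ⊕ Fin (t + 1 + (n + 2)))) ℂ :=
    Ph m U.toList.length (t + 1 + (n + 2)) (Fin rho.toList.length) (fun q => U.toList.get q) ∘ₗ
      symQ (t + 1) n (Sum.inl ())
  have h1 := finrank_quot (PKT m S (Unit ⊕ Fin rho.toList.length) (eS rho k) (t + 1) mu)
    (KerT m S (Unit ⊕ Fin rho.toList.length) (eS rho k) t mu)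
    (PKT m S σ (SZR3.d2 U rho x) (t + 1 + (n + 2)) mu) (KerN m S σ (SZR3.d2 U rho x) (t + 1 + (n + 2)) mu)
    (fun f hf => hf.1) (fun f hf => hf.1) Φ
    (fun f hf => Ph_mem' hd0 (fun r => rfl) (fun q => rfl) hG (hAd2 f hf))
    (fun f hf h => by
      refine ⟨hf, ?_⟩
      have h2 : NF (symQ (t + 1) n (Sum.inl ()) f) := by
        refine Ph_NF (k := x + U.sum) (x := x) (w := fun q => U.toList.get q) (by rw [hsum]) ?_ h.2
        intro v hv
        exact ((hAd2 f hf).2.1 v hv).1 (Sum.inl ())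
      exact nfq DG4a.slStmt DG4r.H909.restStmt m (Unit ⊕ Fin rho.toList.length) (eS rho k) (t + 1)
        n (Sum.inl ()) (by change t + 1 + (n + 2) ≤ k; omega) f
        (fun v hv => ((hAd f hf).2.1 v hv).1)
        (fun s => (mem_PKT.1 hf).2.2.1 1 s (fun j => rfl)) h2)
  have h2 : (Finset.univ : Finset (Unit ⊕ Fin rho.toList.length)).val.map (eS rho k) =
      k ::ₘ rho := by
    have h6 : (Finset.univ : Finset (Fin rho.toList.length)).val.map
        (fun r => eS rho k (.inr r)) = rho := map_univ_toList rho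
    rw [← Finset.univ_disjSum_univ, Finset.val_disjSum, Multiset.disjSum, Multiset.map_add,
      Multiset.map_map, Multiset.map_map]
    have h7 : Multiset.map (eS rho k ∘ Sum.inr) (Finset.univ : Finset (Fin
        rho.toList.length)).val = rho := h6
    rw [h7]
    rfl
  rw [hK m S _ _ t mu (by omega), finrank_KerN hK (t := t + (n + 2)) (by omega) (by omega),
    DG0.transT, DG0.transT, DG0.transT, DG0.transT, map_d2, h2] at h1
  exact h1

end Vale.Agent.P181.DG.H514
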