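import Vale.Agent.P181.DGx.H514.Op

set_option autoImplicit false

/-!
# P181, DG, D4: graded injectivity of `symQ`
-/

open MvPolynomial

namespace Vale.Agent.P181.DG.H514

open Vale.Agent.P181.T4 (HW)
open Vale.Agent.P181.SZR3 (colD itD ColH itD_zero itD_succ dd)
open Vale.Agent.P181.SZT0 (rc inj_pr rc_inj coeff_rc perm_restrict)

section comp

variable {m : ℕ} {α β γ : Type}

lemma rc_rc (g : β → γ) (f : α → β) (p : MvPolynomial (Fin m × α) ℂ) :
    rc m g (rc m f p) = rc m (g ∘ f) p := by
  rw [rc, rc, rc, rename_rename]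
  rfl

lemma rc_id (p : MvPolynomial (Fin m × α) ℂ) : rc m (id : α → α) p = p := by
  have h : (fun q : Fin m × α => (q.1, (id : α → α) q.2)) = id := by
    funext q
    rfl
  rw [rc, h, rename_id_apply]

end comp

/-- The small degrees: old columns `e`, new columns one. -/
def ep {T n : ℕ} (e : Fin T → ℕ) : Fin (T + (n + 2)) → ℕ := Fin.addCases e (fun _ => 1)

lemma ep_old {T n : ℕ} (e : Fin T → ℕ) (i : Fin T) :
    ep (n := n) e (Fin.castAdd (n + 2) i) = e i := Fin.addCases_left i

lemma ep_new {T n : ℕ} (e : Fin T → ℕ) (i : Fin (n + 2)) :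
    ep (n := n) e (Fin.natAdd T i) = 1 := Fin.addCases_right i

/-- The extension of a permutation of the old columns. -/
def ext (T n : ℕ) (τ : Equiv.Perm (Fin T)) : Equiv.Perm (Fin (T + (n + 2))) :=
  (finSumFinEquiv.symm.trans (Equiv.sumCongr τ (Equiv.refl (Fin (n + 2))))).trans finSumFinEquiv

lemma ext_old {T n : ℕ} (τ : Equiv.Perm (Fin T)) (i : Fin T) :
    ext T n τ (Fin.castAdd (n + 2) i) = Fin.castAdd (n + 2) (τ i) := by
  simp [ext]

lemma ext_new {T n : ℕ} (τ : Equiv.Perm (Fin T)) (i : Fin (n + 2)) :
    ext T n τ (Fin.natAdd T i) = Fin.natAdd T i := by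
  simp [ext]

/-- The combinatorial core: a permutation which maps the new columns to columns of degree one is
the extension of a permutation of the old columns followed by one which fixes all columns of
degree at least two. -/
lemma exists_fix {T n : ℕ} (e : Fin T → ℕ) (s : Equiv.Perm (Fin (T + (n + 2))))
    (hs : ∀ k : Fin (n + 2), ep e (s (Fin.natAdd T k)) = 1) :
    ∃ (τ : Equiv.Perm (Fin T)) (ρ : Equiv.Perm (Fin (T + (n + 2)))),
      (∀ j, s j = ρ (ext T n τ j)) ∧ (∀ j, ep e j ≠ 1 → ρ j = j) ∧
        ∀ j, ep e (ρ j) = ep e j := by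
  have h1 : ∀ a : {i : Fin T // ep e (s (Fin.castAdd (n + 2) i)) ≠ 1},
      ∃ i : Fin T, s (Fin.castAdd (n + 2) a.1) = Fin.castAdd (n + 2) i := by
    rintro ⟨a, ha⟩
    induction h : s (Fin.castAdd (n + 2) a) using Fin.addCases with
    | left i => exact ⟨i, rfl⟩
    | right i =>
      rw [h, ep_new] at ha
      exact absurd rfl ha
  choose g hg using h1
  have hginj : Function.Injective g := by
    intro a b hab
    have h2 := hg a
    rw [hab, ← hg b] at h2
    have h3 := Fin.castAdd_injective _ _ (s.injective h2)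
    exact Subtype.ext h3
  obtain ⟨τ, hτ⟩ := Equiv.Perm.exists_extending_pair
    (fun a : {i : Fin T // ep e (s (Fin.castAdd (n + 2) i)) ≠ 1} => a.1) g
    Subtype.val_injective hginj
  let ρ : Equiv.Perm (Fin (T + (n + 2))) := (ext T n τ).symm.trans s
  have hρ : ∀ j, s j = ρ (ext T n τ j) := by
    intro j
    simp only [ρ, Equiv.trans_apply, Equiv.symm_apply_apply]
  have hfix : ∀ j, ep e j ≠ 1 → ρ j = j := by
    intro j hj
    -- `j = s (castAdd a)`
    induction h : s.symm j using Fin.addCases with
    | left a =>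
      have h4 : s (Fin.castAdd (n + 2) a) = j := by rw [← h, Equiv.apply_symm_apply]
      have h5 := hτ ⟨a, by rw [h4]; exact hj⟩
      have h6 := hg ⟨a, by rw [h4]; exact hj⟩
      simp only at h5 h6
      rw [← h5, ← ext_old, hρ] at h6
      rw [hρ] at h4
      have h7 : j = ext T n τ (Fin.castAdd (n + 2) a) := h4.symm.trans h6
      rw [h7]
      exact h6
    | right a =>
      have h4 : s (Fin.natAdd T a) = j := by rw [← h, Equiv.apply_symm_apply]
      rw [← h4, hs] at hj
      exact absurd rfl hj
  refine ⟨τ, ρ, hρ, hfix, fun j => ?_⟩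
  by_cases hj : ep e j = 1
  · by_cases hj2 : ep e (ρ j) = 1
    · rw [hj, hj2]
    · have h8 := hfix _ hj2
      have h9 := ρ.injective h8
      rw [h9]
  · rw [hfix j hj]

section main

variable {m : ℕ} {L : Type} [Fintype L] [DecidableEq L]

/-- The column map which collapses the columns of degree one. -/
def kap {T n : ℕ} (e : Fin T → ℕ) : L ⊕ Fin (T + (n + 2)) → Option (L ⊕ Fin (T + (n + 2)))
  | Sum.inl l => some (Sum.inl l)
  | Sum.inr j => if ep e j = 1 then none else some (Sum.inr j)

/-- The target degrees. -/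
def d2 {T n : ℕ} (δ : L → ℕ) (c : L) (e : Fin T → ℕ) : L ⊕ Fin (T + (n + 2)) → ℕ
  | Sum.inl l => if l = c then δ c - (n + 2) else δ l
  | Sum.inr j => ep e j

/-- The source degrees. -/
def d1 {T n : ℕ} (δ : L → ℕ) (e : Fin T → ℕ) : L ⊕ Fin (T + (n + 2)) → ℕ
  | Sum.inl l => δ l
  | Sum.inr j => Fin.addCases e (fun _ => 0) j

/-- The inclusion of the old columns. -/
def inc (L : Type) (T n : ℕ) : L ⊕ Fin T → L ⊕ Fin (T + (n + 2)) := Sum.map id (Fin.castAdd (n + 2))

lemma inc_inj {T n : ℕ} : Function.Injective (inc L T n) := by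
  rintro (a | a) (b | b) h
  · exact congrArg Sum.inl (Sum.inl_injective h)
  · exact absurd h (by simp [inc])
  · exact absurd h (by simp [inc])
  · exact congrArg Sum.inr (Fin.castAdd_injective _ _ (Sum.inr_injective h))

lemma nw_fin {T n : ℕ} (k : Fin (n + 2)) : nw L T n (k : ℕ) = Sum.inr (Fin.natAdd T k) := by
  rw [nw]
  congr 2
  apply Fin.ext
  rw [Fin.val_ofNat]
  exact Nat.mod_eq_of_lt k.2

lemma nw_lt {T n j : ℕ} (hj : j < n + 2) :
    nw L T n j = Sum.inr (Fin.natAdd T ⟨j, hj⟩) := nw_fin ⟨j, hj⟩

lemma inc_not_nw {T n : ℕ} {j : ℕ} : nw L T n j ∉ Set.range (inc L T n) := by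
  rintro ⟨b | b, hb⟩
  · simp [inc, nw] at hb
  · simp only [inc, nw, Sum.map_inr, Sum.inr.injEq] at hb
    have h1 := congrArg Fin.val hb
    simp only [Fin.val_castAdd, Fin.val_natAdd] at h1
    have := b.2
    omega

/-- Each term of the symmetrisation is zero or equal to the first one. -/
lemma term {T n : ℕ} {c : L} (δ : L → ℕ) (e : Fin T → ℕ) (he : ∀ i, 1 ≤ e i)
    {f : MvPolynomial (Fin m × (L ⊕ Fin T)) ℂ}
    (hs : ∀ s : Equiv.Perm (Fin T), rc m (Sum.map id s) f = f)
    (s : Equiv.Perm (Fin (T + (n + 2)))) :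
    cmp (d2 δ c e) (rc m (Sum.map id s) (Qn (nw L T n) (Sum.inl c) n (rc m (inc L T n) f))) = 0 ∨
    rc m (kap e) (cmp (d2 δ c e) (rc m (Sum.map id s)
      (Qn (nw L T n) (Sum.inl c) n (rc m (inc L T n) f)))) =
    rc m (kap e) (cmp (d2 δ c e) (Qn (nw L T n) (Sum.inl c) n (rc m (inc L T n) f))) := by
  classical
  have hinj : ∀ s : Equiv.Perm (Fin (T + (n + 2))),
      Function.Bijective (Sum.map (id : L → L) s) := fun s =>
    (Equiv.sumCongr (Equiv.refl L) s).bijective
  have hcmp : ∀ (s : Equiv.Perm (Fin (T + (n + 2))))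
      (H : MvPolynomial (Fin m × (L ⊕ Fin (T + (n + 2)))) ℂ),
      cmp (d2 δ c e) (rc m (Sum.map id s) H) =
        rc m (Sum.map id s) (cmp (fun j => d2 δ c e (Sum.map id s j)) H) := fun s H =>
    cmp_rc (hinj s).1 (fun b hb => absurd ((hinj s).2 b) hb) H
  by_cases h : ∀ k : Fin (n + 2), ep e (s (Fin.natAdd T k)) = 1
  · right
    obtain ⟨τ, ρ, h1, h2, h3⟩ := exists_fix e s h
    have h4 : (Sum.map id s : L ⊕ Fin (T + (n + 2)) → L ⊕ Fin (T + (n + 2))) =
        Sum.map id ρ ∘ Sum.map id (ext T n τ) := by
      funext j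
      rcases j with j | j
      · rfl
      · simp only [Sum.map_inr, Function.comp_apply, h1]
    have h5 : rc m (Sum.map id (ext T n τ)) (Qn (nw L T n) (Sum.inl c) n
        (rc m (inc L T n) f)) = Qn (nw L T n) (Sum.inl c) n (rc m (inc L T n) f) := by
      have h6 := rename_Qn (m := m) (Equiv.sumCongr (Equiv.refl L) (ext T n τ))
        (u := nw L T n) (c := Sum.inl c) rfl n (fun j hj => by
          rw [nw_lt hj]
          simp only [Equiv.sumCongr_apply, Sum.map_inr, ext_new]) (rc m (inc L T n) f)
      have h7 : rc m (Sum.map id (ext T n τ)) (rc m (inc L T n) f) = rc m (inc L T n) f := by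
        conv_rhs => rw [← hs τ]
        rw [rc_rc, rc_rc]
        congr 1
        congr 1
        funext j
        rcases j with j | j
        · rfl
        · simp only [inc, Function.comp_apply, Sum.map_inr, ext_old]
      have h8 : ∀ g : MvPolynomial (Fin m × (L ⊕ Fin (T + (n + 2)))) ℂ,
          rename (fun p : Fin m × (L ⊕ Fin (T + (n + 2))) =>
            (p.1, (Equiv.sumCongr (Equiv.refl L) (ext T n τ)) p.2)) g =
          rc m (Sum.map id (ext T n τ)) g := fun g => rfl
      rw [h8, h8, h7] at h6
      exact h6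
    rw [h4, ← rc_rc, h5, hcmp ρ]
    have h9 : (fun j => d2 δ c e (Sum.map id ρ j)) = d2 (n := n) δ c e := by
      funext j
      rcases j with j | j
      · rfl
      · simp only [Sum.map_inr, d2, h3]
    have h10 : kap (L := L) e ∘ Sum.map id ρ = kap (n := n) e := by
      funext j
      rcases j with j | j
      · rfl
      · simp only [Function.comp_apply, Sum.map_inr, kap, h3]
        split_ifs with h11
        · rfl
        · rw [h2 j h11]
    rw [h9, rc_rc, h10]
  · left
    rw [not_forall] at h
    obtain ⟨k0, hk0⟩ := h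
    rw [hcmp s, cmp_eq_zero, map_zero]
    intro v hv hv'
    obtain ⟨v0, g1, -, -, g4, -⟩ := exists_coeff_Qn (fun j => nw_ne c) n
      (fun i j hi hj => nw_inj hi hj) hv
    obtain ⟨u, hu, g5, g6⟩ := coeff_rc inc_inj g1
    have g7 : ∑ j ∈ Finset.range (n + 2), ∑ i, v0 (i, nw L T n j) = 0 := by
      apply Finset.sum_eq_zero
      intro j _
      exact Finset.sum_eq_zero fun i _ => g6 i _ inc_not_nw
    rw [g7, add_zero, Finset.sum_range] at g4
    have g8 : ∀ k : Fin (n + 2), ∑ i, v (i, nw L T n (k : ℕ)) = ep e (s (Fin.natAdd T k)) := by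
      intro k
      rw [nw_fin]
      exact hv' (Sum.inr (Fin.natAdd T k))
    rw [Finset.sum_congr rfl fun k _ => g8 k] at g4
    have g9 : ∀ j : Fin (T + (n + 2)), 1 ≤ ep e j := by
      intro j
      induction j using Fin.addCases with
      | left i =>
        rw [ep_old]
        exact he i
      | right i => rw [ep_new]
    have g10 : ∑ _k : Fin (n + 2), 1 < ∑ k : Fin (n + 2), ep e (s (Fin.natAdd T k)) := by
      apply Finset.sum_lt_sum
      · intro k _
        exact g9 _
      · exact ⟨k0, Finset.mem_univ _, lt_of_le_of_ne (g9 _) (Ne.symm hk0)⟩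
    rw [g4] at g10
    simp at g10

/-- **[D4i]** graded injectivity. -/
theorem nfq (hS : SlStmt) (hR : RestStmt) : NFQStmt := by
  intro m L _ _ δ T n c hT f hf hs hNF
  classical
  intro v0 hv0
  by_contra hcon
  rw [not_exists] at hcon
  have he : ∀ j : Fin T, 1 ≤ ∑ i, v0 (i, Sum.inr j) := fun j => Nat.one_le_iff_ne_zero.2 (hcon j)
  set e : Fin T → ℕ := fun j => ∑ i, v0 (i, Sum.inr j) with hedef
  set H := Qn (nw L T n) (Sum.inl c) n (rc m (inc L T n) f) with hH
  set X := rc m (kap e) (cmp (d2 δ c e) H) with hX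
  have hs' : ∀ s : Equiv.Perm (Fin T), rc m (Sum.map id s) f = f := hs
  have hge : ∀ j : Fin (T + (n + 2)), 1 ≤ ep e j := by
    intro j
    induction j using Fin.addCases with
    | left i =>
      rw [ep_old]
      exact he i
    | right i => rw [ep_new]
  -- the sum
  have h1 : cmp (d2 δ c e) (symQ T n c f) = 0 := by
    apply cmp_eq_zero
    intro v hv hv'
    obtain ⟨j, hj⟩ := hNF v hv
    have h2 := hv' (Sum.inr j)
    rw [hj] at h2
    have h3 := hge j
    simp only [d2] at h2
    omega
  have h2 : ∑ s : Equiv.Perm (Fin (T + (n + 2))),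
      rc m (kap e) (cmp (d2 δ c e) (rc m (Sum.map id s) H)) = 0 := by
    have h3 := congrArg (rc m (kap e)) h1
    rw [symQ_apply, map_sum, map_sum, map_zero] at h3
    exact h3
  have h3 : ∀ s : Equiv.Perm (Fin (T + (n + 2))),
      rc m (kap e) (cmp (d2 δ c e) (rc m (Sum.map id s) H)) =
        if rc m (kap e) (cmp (d2 δ c e) (rc m (Sum.map id s) H)) = X then X else 0 := by
    intro s
    rcases term (c := c) δ e he hs' s with h4 | h4
    · split_ifs with h5
      · exact h5
      · rw [h4, map_zero]
    · rw [if_pos h4]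
      exact h4
  have h4 : X = 0 := by
    rw [Finset.sum_congr rfl fun s _ => h3 s, ← Finset.sum_filter, Finset.sum_const] at h2
    rcases smul_eq_zero.1 h2 with h5 | h5
    · rw [Finset.card_eq_zero, Finset.filter_eq_empty_iff] at h5
      exfalso
      apply h5 (Finset.mem_univ 1)
      have h6 : (Sum.map id (1 : Equiv.Perm (Fin (T + (n + 2)))) :
          L ⊕ Fin (T + (n + 2)) → L ⊕ Fin (T + (n + 2))) = id := by
        funext j
        rcases j with j | j <;> rfl
      rw [h6, rc_id]
    · exact h5
  -- the value of `X`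
  have hκ : ∀ b : L ⊕ Fin (T + (n + 2)), kap e b = kap e (Sum.inl c) → b = Sum.inl c := by
    rintro (b | b) hb
    · exact Option.some_injective _ hb
    · exfalso
      simp only [kap] at hb
      split_ifs at hb
      simp at hb
  have h5 : X = (-2 : ℂ) • itD none (some (Sum.inl c)) (n + 2)
      (rc m (kap e) (cmp (d1 δ e) (rc m (inc L T n) f))) := by
    refine rc_cmp_Qn (kap e) (fun j => nw_ne c) hκ n (fun i j hi hj => nw_inj hi hj)
      (fun j hj => ?_) (fun j hj => ?_) ?_ (fun b hb1 hb2 => ?_) _ (fun v hv j hj => ?_)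
    · rw [nw_lt hj]
      simp only [kap, ep_new, if_true]
    · rw [nw_lt hj]
      simp only [d2, d1, ep_new, Fin.addCases_right, and_self]
    · simp only [d2, d1, if_true]
      omega
    · rcases b with b | b
      · have hb : b ≠ c := fun h => hb1 (by rw [h])
        simp only [d2, d1, hb, if_false]
      · induction b using Fin.addCases with
        | left i => simp only [d2, d1, ep_old, Fin.addCases_left]
        | right i =>
          exfalso
          apply hb2 (i : ℕ) i.2
          rw [nw_fin]
    · obtain ⟨u, -, -, g6⟩ := coeff_rc inc_inj hv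
      exact Finset.sum_eq_zero fun i _ => g6 i _ inc_not_nw
  rw [h4] at h5
  have h6 : itD none (some (Sum.inl c)) (n + 2)
      (rc m (kap e) (cmp (d1 δ e) (rc m (inc L T n) f))) = 0 := by
    rcases smul_eq_zero.1 h5.symm with h7 | h7
    · norm_num at h7
    · exact h7
  -- the sl_2 core
  have h7 : rc m (kap e) (cmp (d1 δ e) (rc m (inc L T n) f)) = 0 := by
    refine hS m (Option (L ⊕ Fin (T + (n + 2)))) none (some (Sum.inl c)) _ (n + 2) (by simp) ?_ _
      (colH_rc (kap e) (colH_cmp (d1 δ e) (rc m (inc L T n) f))) h6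
    have g1 : ∑ b : L ⊕ Fin (T + (n + 2)), (if kap e b = some (Sum.inl c) then d1 δ e b
        else 0) = δ c := by
      rw [Finset.sum_eq_single (Sum.inl c)]
      · simp only [kap, if_true, d1]
      · intro b _ hb
        rw [if_neg]
        intro hb2
        exact hb (hκ b hb2)
      · intro h
        exact absurd (Finset.mem_univ _) h
    have g2 : ∑ b : L ⊕ Fin (T + (n + 2)), (if kap e b = none then d1 δ e b else 0) ≤ T := by
      rw [Fintype.sum_sum_type, Fin.sum_univ_add]
      have g3 : ∑ x : L, (if kap (n := n) e (Sum.inl x) = none then d1 (n := n) δ e (Sum.inl x)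
          else 0) = 0 := by
        apply Finset.sum_eq_zero
        intro x _
        simp [kap]
      have g4 : ∑ x : Fin (n + 2), (if kap (L := L) e (Sum.inr (Fin.natAdd T x)) = none then
          d1 δ e (Sum.inr (Fin.natAdd T x)) else 0) = 0 := by
        apply Finset.sum_eq_zero
        intro x _
        simp only [d1, Fin.addCases_right, ite_self]
      have g5 : ∑ x : Fin T, (if kap (L := L) e (Sum.inr (Fin.castAdd (n + 2) x)) = none then
          d1 δ e (Sum.inr (Fin.castAdd (n + 2) x)) else 0) ≤ ∑ _x : Fin T, 1 := by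
        apply Finset.sum_le_sum
        intro x _
        simp only [kap, d1, ep_old, Fin.addCases_left]
        by_cases hx : e x = 1
        · simp only [hx, if_true, le_refl]
        · simp [hx]
      rw [g3, g4]
      simp only [Finset.sum_const, Finset.card_univ, Fintype.card_fin, smul_eq_mul,
        mul_one] at g5
      omega
    change ∑ b : L ⊕ Fin (T + (n + 2)), (if kap e b = none then d1 δ e b else 0) + (n + 2) ≤
      ∑ b : L ⊕ Fin (T + (n + 2)), (if kap e b = some (Sum.inl c) then d1 δ e b else 0)
    omega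
  -- restitution
  have h8 : cmp (d1 δ e) (rc m (inc L T n) f) =
      rc m (inc L T n) (cmp (fun b => d1 (n := n) δ e (inc L T n b)) f) := by
    apply cmp_rc inc_inj
    rintro (b | b) hb
    · exact absurd ⟨Sum.inl b, rfl⟩ hb
    · induction b using Fin.addCases with
      | left i => exact absurd ⟨Sum.inr i, rfl⟩ hb
      | right i => simp only [d1, Fin.addCases_right]
  have h9 : (fun b => d1 (n := n) δ e (inc L T n b)) = Sum.elim δ e := by
    funext b
    rcases b with b | b
    · rfl
    · simp only [inc, Sum.map_inr, d1, Fin.addCases_left, Sum.elim_inr]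
  rw [h8, rc_rc, h9] at h7
  have h10 : cmp (Sum.elim δ e) f = 0 := by
    refine hR m (L ⊕ Fin T) (Option (L ⊕ Fin (T + (n + 2)))) (kap e ∘ inc L T n)
      {b | ∃ j, b = Sum.inr j ∧ e j = 1} none ?_ ?_ _ ?_ ?_ h7
    · rintro (b | b)
      · simp [inc, kap]
      · simp [inc, kap, ep_old]
    · rintro (b | b) (b' | b') hb hbb
      · simp only [Function.comp_apply, inc, Sum.map_inl, kap, id] at hbb
        exact congrArg Sum.inl (Sum.inl_injective (Option.some_injective _ hbb))
      · exfalso
        simp only [Function.comp_apply, inc, Sum.map_inl, Sum.map_inr, kap, id] at hbb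
        split_ifs at hbb
        simp at hbb
      · exfalso
        have hb1 : e b ≠ 1 := fun h => hb ⟨b, rfl, h⟩
        simp only [Function.comp_apply, inc, Sum.map_inl, Sum.map_inr, kap, id, ep_old,
          hb1, if_false] at hbb
        simp at hbb
      · have hb1 : e b ≠ 1 := fun h => hb ⟨b, rfl, h⟩
        simp only [Function.comp_apply, inc, Sum.map_inr, kap, ep_old, hb1, if_false] at hbb
        split_ifs at hbb
        have hbb2 := Sum.inr_injective (Option.some_injective _ hbb)
        exact congrArg Sum.inr (Fin.castAdd_injective _ _ hbb2)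
    · rintro v hv b ⟨j, rfl, hj⟩
      rw [colH_cmp _ _ v hv (Sum.inr j)]
      exact hj
    · intro ε hε
      have hl : ∀ l : L, ε (Sum.inl l) = Sum.inl l := fun l => hε _ (by
        rintro ⟨j, hj, -⟩
        simp at hj)
      obtain ⟨s, hs2⟩ := perm_restrict (ι := (Sum.inr : Fin T → L ⊕ Fin T))
        Sum.inr_injective ε (by
          intro x
          rcases x with x | x
          · rw [hl]
          · constructor
            · intro _
              exact ⟨x, rfl⟩
            · intro _
              rcases hx : ε (Sum.inr x) with y | y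
              · rw [← hl y] at hx
                exact absurd (ε.injective hx) (by simp)
              · exact ⟨y, rfl⟩)
      have g1 : (ε : L ⊕ Fin T → L ⊕ Fin T) = Sum.map id s := by
        funext b
        rcases b with b | b
        · rw [hl]
          rfl
        · rw [← hs2]
          rfl
      have g2 : ∀ b, Sum.elim δ e (Sum.map id s b) = Sum.elim δ e b := by
        intro b
        rcases b with b | b
        · rfl
        · have g3 : ε (Sum.inr b) = Sum.inr (s b) := (hs2 b).symm
          simp only [Sum.map_inr, Sum.elim_inr]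
          by_cases g4 : e b = 1
          · by_cases g5 : e (s b) = 1
            · rw [g4, g5]
            · have g6 := hε (Sum.inr (s b)) (by
                rintro ⟨j, hj, hj2⟩
                rw [← Sum.inr_injective hj] at hj2
                exact g5 hj2)
              rw [← g3] at g6
              have g7 := ε.injective g6
              rw [g3] at g7
              rw [Sum.inr_injective g7]
          · have g6 := hε (Sum.inr b) (by
              rintro ⟨j, hj, hj2⟩
              rw [← Sum.inr_injective hj] at hj2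
              exact g4 hj2)
            rw [g3] at g6
            rw [Sum.inr_injective g6]
      have g7 : rename (fun q : Fin m × (L ⊕ Fin T) => (q.1, ε q.2))
          (cmp (Sum.elim δ e) f) = rc m (Sum.map id s) (cmp (Sum.elim δ e) f) := by
        rw [rc, g1]
      rw [g7]
      have g8 := cmp_rc (m := m) (ι := Sum.map (id : L → L) s)
        (Equiv.sumCongr (Equiv.refl L) s).injective (δ := Sum.elim δ e) (fun b hb =>
          absurd ((Equiv.sumCongr (Equiv.refl L) s).surjective b) hb) f
      rw [hs' s] at g8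
      have g9 : (fun j => Sum.elim δ e (Sum.map (id : L → L) s j)) = Sum.elim δ e :=
        funext g2
      rw [g9] at g8
      exact g8.symm
  apply hv0
  have h11 : coeff v0 (cmp (Sum.elim δ e) f) = coeff v0 f := by
    apply coeff_cmp_pos
    rintro (b | b)
    · exact hf v0 hv0 b
    · rfl
  rw [← h11, h10, coeff_zero]

end main

end Vale.Agent.P181.DG.H514
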