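import Vale.Agent.P181.DGx.H514.Cmp

set_option autoImplicit false

/-!
# P181, DG, D4: the operator which moves `D` units from the column `c` to `D` new columns
-/

open MvPolynomial

namespace Vale.Agent.P181.DG.H514

open Vale.Agent.P181.T4 (HW)
open Vale.Agent.P181.SZR3 (colD itD ColH colD_X colH_colD exists_coeff_colD sum_single_col
  itD_zero itD_succ dd mem_HW_itD rename_colD colD_eq pderiv_X' der_sum)
open Vale.Agent.P181.SZT0 (rc inj_pr rc_inj coeff_rc)

variable {m : ℕ} {B : Type} [Fintype B] [DecidableEq B]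

/-- The difference of two column operators. -/
noncomputable def dl (a b c : B) :
    MvPolynomial (Fin m × B) ℂ →ₗ[ℂ] MvPolynomial (Fin m × B) ℂ :=
  ((colD a c : Derivation ℂ (MvPolynomial (Fin m × B) ℂ)
    (MvPolynomial (Fin m × B) ℂ)).toLinearMap) - ((colD b c : Derivation ℂ
    (MvPolynomial (Fin m × B) ℂ) (MvPolynomial (Fin m × B) ℂ)).toLinearMap)

omit [Fintype B] in
lemma dl_apply (a b c : B) (f : MvPolynomial (Fin m × B) ℂ) :
    dl a b c f = colD a c f - colD b c f := rfl

/-- The operator `δ₀₁² δ₂₁ δ₃₂ ⋯` with `n + 2` factors. -/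
noncomputable def Qn (u : ℕ → B) (c : B) :
    ℕ → (MvPolynomial (Fin m × B) ℂ →ₗ[ℂ] MvPolynomial (Fin m × B) ℂ)
  | 0 => dl (u 0) (u 1) c ∘ₗ dl (u 0) (u 1) c
  | n + 1 => dl (u (n + 2)) (u (n + 1)) c ∘ₗ Qn u c n

omit [Fintype B] in
lemma Qn_zero (u : ℕ → B) (c : B) (f : MvPolynomial (Fin m × B) ℂ) :
    Qn u c 0 f = dl (u 0) (u 1) c (dl (u 0) (u 1) c f) := rfl

omit [Fintype B] in
lemma Qn_succ (u : ℕ → B) (c : B) (n : ℕ) (f : MvPolynomial (Fin m × B) ℂ) :
    Qn u c (n + 1) f = dl (u (n + 2)) (u (n + 1)) c (Qn u c n f) := rfl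

/-- Column degrees under `dl`. -/
lemma exists_coeff_dl {a b c : B} {f : MvPolynomial (Fin m × B) ℂ} {v : Fin m × B →₀ ℕ}
    (h : coeff v (dl a b c f) ≠ 0) : ∃ (x : B) (v0 : Fin m × B →₀ ℕ), (x = a ∨ x = b) ∧
      coeff v0 f ≠ 0 ∧ ∀ j, ∑ i, v (i, j) + (if c = j then 1 else 0) =
        ∑ i, v0 (i, j) + (if x = j then 1 else 0) := by
  rw [dl_apply, coeff_sub] at h
  have h1 : coeff v (colD a c f) ≠ 0 ∨ coeff v (colD b c f) ≠ 0 := by
    by_contra h2
    rw [not_or, not_not, not_not] at h2
    rw [h2.1, h2.2, sub_self] at h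
    exact h rfl
  rcases h1 with h1 | h1
  · obtain ⟨i, u, rfl, hu⟩ := exists_coeff_colD a c _ v h1
    refine ⟨a, _, Or.inl rfl, hu, fun j => ?_⟩
    simp only [Finsupp.add_apply, Finset.sum_add_distrib, sum_single_col]
    omega
  · obtain ⟨i, u, rfl, hu⟩ := exists_coeff_colD b c _ v h1
    refine ⟨b, _, Or.inr rfl, hu, fun j => ?_⟩
    simp only [Finsupp.add_apply, Finset.sum_add_distrib, sum_single_col]
    omega

/-- Column degrees under `Qn`. -/
lemma exists_coeff_Qn {u : ℕ → B} {c : B} (hc : ∀ j, u j ≠ c) (n : ℕ)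
    (hu : ∀ i j, i < n + 2 → j < n + 2 → u i = u j → i = j)
    {f : MvPolynomial (Fin m × B) ℂ} {v : Fin m × B →₀ ℕ} (h : coeff v (Qn u c n f) ≠ 0) :
    ∃ v0 : Fin m × B →₀ ℕ, coeff v0 f ≠ 0 ∧
      (∀ b, b ≠ c → (∀ j, j < n + 2 → b ≠ u j) → ∑ i, v (i, b) = ∑ i, v0 (i, b)) ∧
      ∑ i, v (i, c) + (n + 2) = ∑ i, v0 (i, c) ∧
      ∑ j ∈ Finset.range (n + 2), ∑ i, v (i, u j) =
        n + 2 + ∑ j ∈ Finset.range (n + 2), ∑ i, v0 (i, u j) ∧
      (∀ j, j < n + 2 → ∑ i, v (i, u j) ≤ ∑ i, v0 (i, u j) + 3) ∧
      ∑ i, v (i, u (n + 1)) ≤ ∑ i, v0 (i, u (n + 1)) + 2 := by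
  induction n generalizing v with
  | zero =>
    rw [Qn_zero] at h
    obtain ⟨x, v1, hx, h1, h2⟩ := exists_coeff_dl h
    obtain ⟨y, v0, hy, h3, h4⟩ := exists_coeff_dl h1
    have h01 : u 0 ≠ u 1 := fun h => by simpa using hu 0 1 (by omega) (by omega) h
    have hc0 := hc 0
    have hc1 := hc 1
    have e1 := h2 c
    have e2 := h4 c
    have e3 := h2 (u 0)
    have e4 := h4 (u 0)
    have e5 := h2 (u 1)
    have e6 := h4 (u 1)
    refine ⟨v0, h3, fun b hb1 hb2 => ?_, ?_, ?_, ?_, ?_⟩
    · have e7 := h2 b
      have e8 := h4 b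
      have hb3 := hb2 0 (by omega)
      have hb4 := hb2 1 (by omega)
      rcases hx with rfl | rfl <;> rcases hy with rfl | rfl <;>
        simp only [Ne.symm hb1, Ne.symm hb3, Ne.symm hb4, if_false] at e7 e8 <;> omega
    · rcases hx with rfl | rfl <;> rcases hy with rfl | rfl <;>
        simp only [hc0, hc1, if_false, if_true] at e1 e2 <;> omega
    · simp only [Finset.sum_range_succ, Finset.sum_range_zero, zero_add]
      rcases hx with rfl | rfl <;> rcases hy with rfl | rfl <;>
        simp only [Ne.symm hc0, Ne.symm hc1, h01, Ne.symm h01, if_false, if_true]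
          at e3 e4 e5 e6 <;> omega
    · intro j hj
      have hj' : j = 0 ∨ j = 1 := by omega
      rcases hj' with rfl | rfl
      · rcases hx with rfl | rfl <;> rcases hy with rfl | rfl <;>
          simp only [Ne.symm hc0, Ne.symm hc1, h01, Ne.symm h01, if_false, if_true]
            at e3 e4 e5 e6 <;> omega
      · rcases hx with rfl | rfl <;> rcases hy with rfl | rfl <;>
          simp only [Ne.symm hc0, Ne.symm hc1, h01, Ne.symm h01, if_false, if_true]
            at e3 e4 e5 e6 <;> omega
    · simp only [zero_add]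
      rcases hx with rfl | rfl <;> rcases hy with rfl | rfl <;>
        simp only [Ne.symm hc0, Ne.symm hc1, h01, Ne.symm h01, if_false, if_true]
          at e3 e4 e5 e6 <;> omega
  | succ n ih =>
    rw [Qn_succ] at h
    obtain ⟨x, v1, hx, h1, h2⟩ := exists_coeff_dl h
    obtain ⟨v0, h3, h4, h5, h6, h7, h8⟩ :=
      ih (fun i j hi hj => hu i j (by omega) (by omega)) h1
    have hn : ∀ j, j < n + 2 → u j ≠ u (n + 2) := fun j hj he => by
      have := hu j (n + 2) (by omega) (by omega) he
      omega
    have e1 := h2 c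
    have e2 := h2 (u (n + 2))
    have e3 := h2 (u (n + 1))
    have h9 := h4 (u (n + 2)) (hc _) (fun j hj => Ne.symm (hn j hj))
    have hcn := hc (n + 2)
    have hcn1 := hc (n + 1)
    have hnn := hn (n + 1) (by omega)
    refine ⟨v0, h3, fun b hb1 hb2 => ?_, ?_, ?_, ?_, ?_⟩
    · have e7 := h2 b
      have e8 := h4 b hb1 (fun j hj => hb2 j (by omega))
      have hb3 := hb2 (n + 1) (by omega)
      have hb4 := hb2 (n + 2) (by omega)
      rcases hx with rfl | rfl <;>
        simp only [Ne.symm hb1, Ne.symm hb3, Ne.symm hb4, if_false] at e7 <;> omega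
    · rcases hx with rfl | rfl <;>
        simp only [hcn, hcn1, if_false, if_true] at e1 <;> omega
    · rw [Finset.sum_range_succ _ (n + 2), Finset.sum_range_succ _ (n + 2)]
      rcases hx with rfl | rfl
      · have h10 : ∑ j ∈ Finset.range (n + 2), ∑ i, v (i, u j) =
            ∑ j ∈ Finset.range (n + 2), ∑ i, v1 (i, u j) := by
          apply Finset.sum_congr rfl
          intro j hj
          have e7 := h2 (u j)
          have hj2 := hn j (Finset.mem_range.1 hj)
          have hj3 := hc j
          simp only [Ne.symm hj2, Ne.symm hj3, if_false] at e7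
          omega
        simp only [Ne.symm hcn, if_false, if_true] at e2
        omega
      · have h10 : ∑ j ∈ Finset.range (n + 1), ∑ i, v (i, u j) =
            ∑ j ∈ Finset.range (n + 1), ∑ i, v1 (i, u j) := by
          apply Finset.sum_congr rfl
          intro j hj
          have e7 := h2 (u j)
          have hj' := Finset.mem_range.1 hj
          have hj2 : u (n + 1) ≠ u j := fun he => by
            have := hu (n + 1) j (by omega) (by omega) he
            omega
          have hj3 := hc j
          simp only [hj2, Ne.symm hj3, if_false] at e7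
          omega
        simp only [Ne.symm hcn, hnn, if_false] at e2
        simp only [Ne.symm hcn1, if_false, if_true] at e3
        rw [Finset.sum_range_succ _ (n + 1)] at h6 ⊢
        omega
    · intro j hj
      by_cases hj1 : j = n + 2
      · subst hj1
        rcases hx with rfl | rfl <;>
          simp only [Ne.symm hcn, hnn, if_false, if_true] at e2 <;> omega
      · by_cases hj2 : j = n + 1
        · subst hj2
          rcases hx with rfl | rfl <;>
            simp only [Ne.symm hcn1, Ne.symm hnn, if_false, if_true] at e3 <;> omega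
        · have e7 := h2 (u j)
          have h10 := h7 j (by omega)
          have hj3 := hc j
          have hj4 := hn j (by omega)
          have hj5 : u (n + 1) ≠ u j := fun he => by
            have := hu (n + 1) j (by omega) (by omega) he
            omega
          rcases hx with rfl | rfl <;>
            simp only [Ne.symm hj3, Ne.symm hj4, hj5, if_false] at e7 <;> omega
    · change ∑ i, v (i, u (n + 2)) ≤ ∑ i, v0 (i, u (n + 2)) + 2
      rcases hx with rfl | rfl <;>
        simp only [Ne.symm hcn, hnn, if_false, if_true] at e2 <;> omega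

/-- The component with all new columns of degree one, collapsed to one column. -/
lemma rc_cmp_Qn {B' : Type} [DecidableEq B'] (κ : B → B') {u : ℕ → B} {c : B} {z : B'}
    (hc : ∀ j, u j ≠ c) (hκ : ∀ b, κ b = κ c → b = c) (n : ℕ)
    (hu : ∀ i j, i < n + 2 → j < n + 2 → u i = u j → i = j)
    (hz : ∀ j, j < n + 2 → κ (u j) = z) {δ δ' : B → ℕ}
    (h1 : ∀ j, j < n + 2 → δ' (u j) = 1 ∧ δ (u j) = 0) (h2 : δ' c + (n + 2) = δ c)
    (h3 : ∀ b, b ≠ c → (∀ j, j < n + 2 → b ≠ u j) → δ' b = δ b)
    (f : MvPolynomial (Fin m × B) ℂ)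
    (hf : ∀ v, coeff v f ≠ 0 → ∀ j, j < n + 2 → ∑ i, v (i, u j) = 0) :
    rc m κ (cmp δ' (Qn u c n f)) = (-2 : ℂ) • itD z (κ c) (n + 2) (rc m κ (cmp δ f)) := by
  induction n generalizing δ' with
  | zero =>
    have h01 : u 0 ≠ u 1 := fun h => by simpa using hu 0 1 (by omega) (by omega) h
    have hc0 := hc 0
    have hc1 := hc 1
    obtain ⟨a0, a1⟩ := h1 0 (by omega)
    obtain ⟨a2, a3⟩ := h1 1 (by omega)
    have key : ∀ p q : B, p ≠ q → (p = u 0 ∨ p = u 1) → (q = u 0 ∨ q = u 1) →
        cmp δ' (colD p c (colD q c f)) = colD p c (colD q c (cmp δ f)) := by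
      intro p q hpq hp hq
      have hpc : p ≠ c := by rcases hp with rfl | rfl <;> assumption
      have hqc : q ≠ c := by rcases hq with rfl | rfl <;> assumption
      have hp1 : δ' p = 1 := by rcases hp with rfl | rfl <;> assumption
      have hq1 : δ' q = 1 := by rcases hq with rfl | rfl <;> assumption
      have hp0 : δ p = 0 := by rcases hp with rfl | rfl <;> assumption
      have hq0 : δ q = 0 := by rcases hq with rfl | rfl <;> assumption
      rw [cmp_colD (δ := fun j => if j = p then 0 else if j = c then δ c - 1 else δ' j),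
        cmp_colD (δ := δ)]
      · intro j
        by_cases g1 : j = p
        · subst g1
          simp [Ne.symm hpc, hp0, hpq.symm]
        · by_cases g2 : j = c
          · subst g2
            simp [g1, hqc]
            omega
          · by_cases g3 : j = q
            · subst g3
              simp [g1, Ne.symm g2, g2, hq1, hq0]
            · have g4 := h3 j g2 (fun i hi => by
                have hi' : i = 0 ∨ i = 1 := by omega
                rcases hi' with rfl | rfl
                · rcases hp with rfl | rfl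
                  · exact g1
                  · rcases hq with rfl | rfl
                    · exact g3
                    · exact absurd rfl hpq
                · rcases hp with rfl | rfl
                  · rcases hq with rfl | rfl
                    · exact absurd rfl hpq
                    · exact g3
                  · exact g1)
              simp [g1, g2, Ne.symm g2, Ne.symm g3, g4]
      · intro j
        by_cases g1 : j = p
        · subst g1
          simp [hp1, Ne.symm hpc]
        · by_cases g2 : j = c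
          · subst g2
            simp [g1, Ne.symm g1]
            omega
          · simp [g1, g2, Ne.symm g1, Ne.symm g2]
    have key2 : ∀ p : B, (p = u 0 ∨ p = u 1) → cmp δ' (colD p c (colD p c f)) = 0 := by
      intro p hp
      have hpc : p ≠ c := by rcases hp with rfl | rfl <;> assumption
      have hp1 : δ' p = 1 := by rcases hp with rfl | rfl <;> assumption
      rw [cmp_colD (δ := fun j => if j = p then 0 else if j = c then δ' c + 1 else δ' j),
        cmp_colD_zero, map_zero]
      · simp
      · intro j
        by_cases g1 : j = p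
        · subst g1
          simp [hp1, Ne.symm hpc]
        · by_cases g2 : j = c
          · subst g2
            simp [g1, Ne.symm g1]
          · simp [g1, g2, Ne.symm g1, Ne.symm g2]
    have h4 : Qn u c 0 f = colD (u 0) c (colD (u 0) c f) - colD (u 0) c (colD (u 1) c f) -
        (colD (u 1) c (colD (u 0) c f) - colD (u 1) c (colD (u 1) c f)) := by
      rw [Qn_zero, dl_apply, dl_apply, map_sub, map_sub]
    have h5 : cmp δ' (Qn u c 0 f) = -(colD (u 0) c (colD (u 1) c (cmp δ f))) -
        colD (u 1) c (colD (u 0) c (cmp δ f)) := by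
      rw [h4, map_sub, map_sub, map_sub, key2 _ (Or.inl rfl), key2 _ (Or.inr rfl),
        key _ _ h01 (Or.inl rfl) (Or.inr rfl), key _ _ (Ne.symm h01) (Or.inr rfl) (Or.inl rfl)]
      ring
    rw [h5, map_sub, map_neg, rc_colD κ _ _ hκ, rc_colD κ _ _ hκ, rc_colD κ _ _ hκ,
      rc_colD κ _ _ hκ, hz 0 (by omega), hz 1 (by omega), itD_succ, itD_succ, itD_zero,
      neg_smul, two_smul]
    ring
  | succ n ih =>
    have hn : ∀ j, j < n + 2 → u j ≠ u (n + 2) := fun j hj he => by
      have := hu j (n + 2) (by omega) (by omega) he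
      omega
    have hcn := hc (n + 2)
    have hcn1 := hc (n + 1)
    have hnn := hn (n + 1) (by omega)
    obtain ⟨b0, b1⟩ := h1 (n + 2) (by omega)
    obtain ⟨b2, b3⟩ := h1 (n + 1) (by omega)
    rw [Qn_succ, dl_apply, map_sub, map_sub]
    have e1 : cmp δ' (colD (u (n + 2)) c (Qn u c n f)) = colD (u (n + 2)) c
        (cmp (fun j => if j = u (n + 2) then 0 else if j = c then δ' c + 1 else δ' j)
          (Qn u c n f)) := by
      apply cmp_colD
      intro j
      by_cases g1 : j = u (n + 2)
      · subst g1
        simp [b0, Ne.symm hcn]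
      · by_cases g2 : j = c
        · subst g2
          simp [g1, Ne.symm g1]
        · simp [g1, g2, Ne.symm g1, Ne.symm g2]
    have e2 : cmp δ' (colD (u (n + 1)) c (Qn u c n f)) = 0 := by
      rw [cmp_colD (δ := fun j => if j = u (n + 1) then 0 else if j = c then δ' c + 1 else δ' j),
        cmp_eq_zero, map_zero]
      · intro v hv hv'
        obtain ⟨v0, g1, g2, -⟩ := exists_coeff_Qn hc n
          (fun i j hi hj => hu i j (by omega) (by omega)) hv
        have g3 := g2 (u (n + 2)) hcn (fun j hj => Ne.symm (hn j hj))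
        have g4 := hf v0 g1 (n + 2) (by omega)
        have g5 := hv' (u (n + 2))
        simp only [Ne.symm hnn, hcn, if_false, b0] at g5
        omega
      · intro j
        by_cases g1 : j = u (n + 1)
        · subst g1
          simp [b2, Ne.symm hcn1]
        · by_cases g2 : j = c
          · subst g2
            simp [g1, Ne.symm g1]
          · simp [g1, g2, Ne.symm g1, Ne.symm g2]
    have hδc : c ≠ u (n + 2) := Ne.symm hcn
    have e3 : ∀ j, j < n + 2 → (if u j = u (n + 2) then 0 else if u j = c then δ' c + 1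
        else δ' (u j)) = 1 ∧ δ (u j) = 0 := by
      intro j hj
      have g1 := hn j hj
      have g2 := hc j
      simp only [g1, g2, if_false]
      exact h1 j (by omega)
    have e4 : (if c = u (n + 2) then 0 else if c = c then δ' c + 1 else δ' c) + (n + 2) =
        δ c := by
      simp only [hδc, if_false, if_true]
      omega
    have e5 : ∀ b, b ≠ c → (∀ j, j < n + 2 → b ≠ u j) → (if b = u (n + 2) then 0
        else if b = c then δ' c + 1 else δ' b) = δ b := by
      intro b hb1 hb2
      by_cases g1 : b = u (n + 2)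
      · subst g1
        simp [b1]
      · simp only [g1, hb1, if_false]
        apply h3 b hb1
        intro j hj
        by_cases g2 : j = n + 2
        · subst g2
          exact g1
        · exact hb2 j (by omega)
    have e6 := ih (fun i j hi hj => hu i j (by omega) (by omega)) (fun j hj => hz j (by omega))
        (δ' := fun j => if j = u (n + 2) then 0 else if j = c then δ' c + 1 else δ' j)
        e3 e4 e5 (fun v hv j hj => hf v hv j (by omega))
    rw [e1, e2, map_zero, sub_zero, rc_colD κ _ _ hκ, hz (n + 2) (by omega), e6,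
      Derivation.map_smul, ← itD_succ]

lemma mem_HW_colD {a c : B} {mu : Fin m → ℕ} {f : MvPolynomial (Fin m × B) ℂ}
    (hf : f ∈ HW m B mu) : colD a c f ∈ HW m B mu := by
  have h := mem_HW_itD (a := a) (c := c) hf 1
  rwa [itD_succ, itD_zero] at h

lemma mem_HW_dl {a b c : B} {mu : Fin m → ℕ} {f : MvPolynomial (Fin m × B) ℂ}
    (hf : f ∈ HW m B mu) : dl a b c f ∈ HW m B mu := by
  rw [dl_apply]
  exact sub_mem (mem_HW_colD hf) (mem_HW_colD hf)

lemma mem_HW_Qn {u : ℕ → B} {c : B} {mu : Fin m → ℕ} {f : MvPolynomial (Fin m × B) ℂ}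
    (hf : f ∈ HW m B mu) (n : ℕ) : Qn u c n f ∈ HW m B mu := by
  induction n with
  | zero =>
    rw [Qn_zero]
    exact mem_HW_dl (mem_HW_dl hf)
  | succ n ih =>
    rw [Qn_succ]
    exact mem_HW_dl ih

/-- Symmetry. -/
lemma rename_dl (e : Equiv.Perm B) {a b c : B} (ha : e a = a) (hb : e b = b) (hc : e c = c)
    (f : MvPolynomial (Fin m × B) ℂ) :
    rename (fun p : Fin m × B => (p.1, e p.2)) (dl a b c f) =
      dl a b c (rename (fun p : Fin m × B => (p.1, e p.2)) f) := by
  rw [dl_apply, map_sub, rename_colD, rename_colD, ha, hb, hc, dl_apply]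

lemma rename_Qn (e : Equiv.Perm B) {u : ℕ → B} {c : B} (hc : e c = c) (n : ℕ)
    (hu : ∀ j, j < n + 2 → e (u j) = u j) (f : MvPolynomial (Fin m × B) ℂ) :
    rename (fun p : Fin m × B => (p.1, e p.2)) (Qn u c n f) =
      Qn u c n (rename (fun p : Fin m × B => (p.1, e p.2)) f) := by
  induction n with
  | zero => rw [Qn_zero, Qn_zero, rename_dl e (hu 0 (by omega)) (hu 1 (by omega)) hc,
      rename_dl e (hu 0 (by omega)) (hu 1 (by omega)) hc]
  | succ n ih =>
    rw [Qn_succ, Qn_succ, rename_dl e (hu _ (by omega)) (hu _ (by omega)) hc,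
      ih (fun j hj => hu j (by omega))]

omit [Fintype B] in
/-- Partial derivatives and column operators. -/
lemma pderiv_colD (i : Fin m) (b a c : B) (f : MvPolynomial (Fin m × B) ℂ) :
    pderiv (i, b) (colD a c f) = colD a c (pderiv (i, b) f) +
      if b = a then pderiv (i, c) f else 0 := by
  have h : ⁅(pderiv (i, b) : Derivation ℂ (MvPolynomial (Fin m × B) ℂ)
      (MvPolynomial (Fin m × B) ℂ)), (colD a c : Derivation ℂ (MvPolynomial (Fin m × B) ℂ)
      (MvPolynomial (Fin m × B) ℂ))⁆ = if b = a then pderiv (i, c) else 0 := by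
    apply derivation_ext
    rintro ⟨k, l⟩
    rw [Derivation.commutator_apply, colD_X, pderiv_X']
    have h0 : colD a c (if ((k, l) : Fin m × B) = (i, b) then
        (1 : MvPolynomial (Fin m × B) ℂ) else 0) = 0 := by
      split_ifs
      · exact Derivation.map_one_eq_zero _
      · exact map_zero _
    rw [h0, sub_zero]
    by_cases hl : l = c
    · subst hl
      by_cases hb : b = a
      · subst hb
        simp only [if_true, pderiv_X', Prod.mk.injEq, and_true]
      · simp [hb, Ne.symm hb, pderiv_X', Prod.mk.injEq]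
    · by_cases hb : b = a
      · subst hb
        simp [hl, pderiv_X', Prod.mk.injEq]
      · simp [hl, hb]
  have h1 := congrArg (fun D => D f) h
  simp only [Derivation.commutator_apply] at h1
  rw [sub_eq_iff_eq_add'] at h1
  rw [h1]
  split_ifs <;> rfl

end Vale.Agent.P181.DG.H514
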